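import Vale.Agent.P247.Statement
import Vale.Agent.P247.Final

open scoped Manifold ContDiff
open MeasureTheory

namespace Vale.Agent.Results.P247.Almost

open Vale.Agent.P204.St Vale.Agent.P247.St

/-- Cohomologous deformation to a pointwise orthogonal, almost hyperkaehler triple. -/
theorem result (X : Type*) [TopologicalSpace X] [T2Space X] [CompactSpace X]
    [ChartedSpace (EuclideanSpace ℝ (Fin 4)) X] [IsManifold (𝓡 4) ∞ X]
    [MeasurableSpace X] [BorelSpace X]
    (μ : FourForm (EuclideanSpace ℝ (Fin 4)) X) (hμ : IsVolumeForm μ)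
    (m : Measure X) (hm : IsVolumeMeasure μ m)
    (w : Fin 3 → TwoTensor (EuclideanSpace ℝ (Fin 4)) X) (hw : IsHypersymplectic μ w)
    (hn : IsNormalized μ m w) (hb : BPlusThree μ m w) (ε : ℝ) (hε : 0 < ε) :
    ∃ Ω, IsCohomologousDeformation μ w Ω ∧
      ∃ Q : X → Matrix (Fin 3) (Fin 3) ℝ, IsGram μ (Ω 1) Q ∧
        (∀ x i j, i ≠ j → Q x i j = 0) ∧
        (∀ x i, 1 - ε ≤ 2 * m.real Set.univ * Q x i i) ∧
        ∀ i, Integrable (fun x => Q x i i) m ∧
          ∫ x, |2 * m.real Set.univ * Q x i i - 1| ∂m ≤ 2 * ε * m.real Set.univ :=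
  Vale.Agent.P247.almost hμ hm hw hn hb hε

end Vale.Agent.Results.P247.Almost
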